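import Vale.Agent.P235.XC.H237.Mono
import Vale.Agent.P235.H427.Blk

set_option linter.all false

/-!
# `TX r` rooted at its first pole is a rooted minor of `TX (2 r)` at any vertex (helper281)
-/

namespace Vale.Agent.P235.XC.H281

open SimpleGraph Vale.Agent.P235.H134 Vale.Agent.P235.XC Vale.Agent.P235.XC.H237
open Vale.Agent.P235.H750 (RMinor)

/-- the rows up to `i` join the first pole -/
def nu (r s i : ℕ) : Fin 2 ⊕ (Fin r × Fin r) → Set (Fin 2 ⊕ (Fin s × Fin s))
  | Sum.inl p => {v | v = Sum.inl p ∨ (p = 0 ∧ ∃ x : Fin s × Fin s, v = Sum.inr x ∧ x.1.val ≤ i)}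
  | Sum.inr a => {v | ∃ x : Fin s × Fin s, v = Sum.inr x ∧ i < x.1.val ∧
      min (x.1.val - (i + 1)) (r - 1) = a.1.val ∧ min x.2.val (r - 1) = a.2.val}

theorem nu_conn {r s i : ℕ} (hrs : i + 1 + r ≤ s) (a : Fin 2 ⊕ (Fin r × Fin r)) :
    ((TX s).induce (nu r s i a)).Connected := by
  rcases a with p | a
  · have hb : (Sum.inl p : Fin 2 ⊕ (Fin s × Fin s)) ∈ nu r s i (Sum.inl p) := Or.inl rfl
    have : Nonempty (nu r s i (Sum.inl p)) := ⟨⟨_, hb⟩⟩
    have key : ∀ n : ℕ, ∀ x : Fin s × Fin s, x.1.val = n → p = 0 →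
        ∀ hx : (Sum.inr x : Fin 2 ⊕ (Fin s × Fin s)) ∈ nu r s i (Sum.inl p),
        ((TX s).induce (nu r s i (Sum.inl p))).Reachable ⟨_, hb⟩ ⟨_, hx⟩ := by
      intro n
      induction n with
      | zero =>
        intro x hn hp hx
        subst hp
        apply Adj.reachable
        exact tx_0 (Or.inl hn)
      | succ n ih =>
        intro x hn hp hx
        have hx1 := x.1.2
        have hxi : x.1.val ≤ i := by
          rcases hx with hx | ⟨-, y, hy, h1⟩
          · exact absurd hx.symm Sum.inl_ne_inr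
          · obtain rfl : x = y := Sum.inr.inj hy
            exact h1
        have hz : (Sum.inr ((⟨x.1.val - 1, by omega⟩, x.2) : Fin s × Fin s) :
            Fin 2 ⊕ (Fin s × Fin s)) ∈ nu r s i (Sum.inl p) := by
          refine Or.inr ⟨hp, _, rfl, ?_⟩
          simp only
          omega
        refine (ih _ (by simp only; omega) hp hz).trans ?_
        apply Adj.reachable
        refine tx_g ((grid_adj _ _).2 (Or.inl ⟨rfl, Or.inl ?_⟩))
        simp only
        omega
    have hall : ∀ u : nu r s i (Sum.inl p), ((TX s).induce (nu r s i (Sum.inl p))).Reachable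
        ⟨_, hb⟩ u := by
      rintro ⟨u, hu⟩
      rcases id hu with rfl | ⟨hp, x, rfl, hx⟩
      · exact Reachable.refl _
      · exact key _ x rfl hp hu
    exact ⟨fun u v => (hall u).symm.trans (hall v)⟩
  · have ha1 := a.1.2
    have ha2 := a.2.2
    have hb : (Sum.inr ((⟨i + 1 + a.1.val, by omega⟩, ⟨a.2.val, by omega⟩) : Fin s × Fin s) :
        Fin 2 ⊕ (Fin s × Fin s)) ∈ nu r s i (Sum.inr a) := by
      refine ⟨_, rfl, ?_, ?_, ?_⟩
      · simp only
        omega
      · simp only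
        omega
      · simp only
        omega
    have key : ∀ n : ℕ, ∀ x : Fin s × Fin s, x.1.val + x.2.val = n →
        ∀ hx : (Sum.inr x : Fin 2 ⊕ (Fin s × Fin s)) ∈ nu r s i (Sum.inr a),
        ((TX s).induce (nu r s i (Sum.inr a))).Reachable ⟨_, hb⟩ ⟨_, hx⟩ := by
      intro n
      induction n using Nat.strong_induction_on with
      | _ n ih =>
        intro x hn hx
        obtain ⟨y, hy, h0, h1, h2⟩ := id hx
        obtain rfl : x = y := Sum.inr.inj hy
        by_cases c1 : x.1.val = i + 1 + a.1.val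
        · by_cases c2 : x.2.val = a.2.val
          · have e : (⟨_, hb⟩ : nu r s i (Sum.inr a)) = ⟨Sum.inr x, hx⟩ :=
              Subtype.ext (congrArg Sum.inr (Prod.ext (Fin.ext c1.symm) (Fin.ext c2.symm)))
            rw [e]
          · have hx2 := x.2.2
            have hz : (Sum.inr ((x.1, ⟨x.2.val - 1, by omega⟩) : Fin s × Fin s) :
                Fin 2 ⊕ (Fin s × Fin s)) ∈ nu r s i (Sum.inr a) := by
              refine ⟨_, rfl, h0, h1, ?_⟩
              simp only
              omega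
            refine (ih (x.1.val + (x.2.val - 1)) (by omega) _ rfl hz).trans ?_
            apply Adj.reachable
            refine tx_g ((grid_adj _ _).2 (Or.inr ⟨rfl, Or.inl ?_⟩))
            simp only
            omega
        · have hx1 := x.1.2
          have hz : (Sum.inr ((⟨x.1.val - 1, by omega⟩, x.2) : Fin s × Fin s) :
              Fin 2 ⊕ (Fin s × Fin s)) ∈ nu r s i (Sum.inr a) := by
            refine ⟨_, rfl, ?_, ?_, h2⟩
            · simp only
              omega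
            · simp only
              omega
          refine (ih ((x.1.val - 1) + x.2.val) (by omega) _ rfl hz).trans ?_
          apply Adj.reachable
          refine tx_g ((grid_adj _ _).2 (Or.inl ⟨rfl, Or.inl ?_⟩))
          simp only
          omega
    have : Nonempty (nu r s i (Sum.inr a)) := ⟨⟨_, hb⟩⟩
    refine ⟨fun u v => ?_⟩
    obtain ⟨u, hu⟩ := u
    obtain ⟨v, hv⟩ := v
    obtain ⟨x, rfl, -, -, -⟩ := id hu
    obtain ⟨y, rfl, -, -, -⟩ := id hv
    exact (key _ x rfl hu).symm.trans (key _ y rfl hv)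

theorem nu_disj {r s i : ℕ} (a b : Fin 2 ⊕ (Fin r × Fin r)) (hab : a ≠ b) :
    Disjoint (nu r s i a) (nu r s i b) := by
  rw [Set.disjoint_left]
  intro v hva hvb
  rcases a with p | a <;> rcases b with q | b
  · rcases hva with h1 | ⟨hp, x, h1, h2⟩ <;> rcases hvb with h3 | ⟨hq, y, h3, h4⟩
    · exact hab (congrArg Sum.inl (Sum.inl.inj (h1.symm.trans h3)))
    · exact absurd (h1.symm.trans h3) Sum.inl_ne_inr
    · exact absurd (h3.symm.trans h1) Sum.inl_ne_inr
    · exact hab (congrArg Sum.inl (hp.trans hq.symm))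
  · obtain ⟨y, h3, h4, -, -⟩ := hvb
    rcases hva with h1 | ⟨hp, x, h1, h2⟩
    · exact absurd (h1.symm.trans h3) Sum.inl_ne_inr
    · obtain rfl : x = y := Sum.inr.inj (h1.symm.trans h3)
      omega
  · obtain ⟨y, h3, h4, -, -⟩ := hva
    rcases hvb with h1 | ⟨hp, x, h1, h2⟩
    · exact absurd (h1.symm.trans h3) Sum.inl_ne_inr
    · obtain rfl : x = y := Sum.inr.inj (h1.symm.trans h3)
      omega
  · obtain ⟨x, h1, -, h2, h3⟩ := hva
    obtain ⟨y, h4, -, h5, h6⟩ := hvb
    obtain rfl : x = y := Sum.inr.inj (h1.symm.trans h4)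
    exact hab (congrArg Sum.inr (Prod.ext (Fin.ext (h2.symm.trans h5))
      (Fin.ext (h3.symm.trans h6))))

theorem nu_edge {r s i : ℕ} (hrs : i + 1 + r ≤ s) {a b : Fin 2 ⊕ (Fin r × Fin r)}
    (h : (∃ x : Fin r × Fin r, (x.1.val = 0 ∨ x.1.val + 1 = r) ∧ a = Sum.inl 0 ∧ b = Sum.inr x) ∨
    (∃ x : Fin r × Fin r, (x.2.val = 0 ∨ x.2.val + 1 = r) ∧ a = Sum.inl 1 ∧ b = Sum.inr x) ∨
    ∃ x y : Fin r × Fin r, (grid r).Adj x y ∧ a = Sum.inr x ∧ b = Sum.inr y) :
    ∃ x ∈ nu r s i a, ∃ y ∈ nu r s i b, (TX s).Adj x y := by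
  rcases h with ⟨x, hx, rfl, rfl⟩ | ⟨x, hx, rfl, rfl⟩ | ⟨x, y, hxy, rfl, rfl⟩
  · have h1 := x.1.2
    have h2 := x.2.2
    rcases hx with hx | hx
    · refine ⟨Sum.inr (⟨i, by omega⟩, ⟨x.2.val, by omega⟩), Or.inr ⟨rfl, _, rfl, le_rfl⟩,
        Sum.inr (⟨i + 1, by omega⟩, ⟨x.2.val, by omega⟩), ⟨_, rfl, ?_, ?_, ?_⟩,
        tx_g ((grid_adj _ _).2 (Or.inl ⟨rfl, Or.inl rfl⟩))⟩
      · simp only
        omega
      · simp only
        omega
      · simp only
        omega
    · refine ⟨Sum.inl 0, Or.inl rfl, Sum.inr (⟨s - 1, by omega⟩, ⟨x.2.val, by omega⟩),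
        ⟨_, rfl, ?_, ?_, ?_⟩, tx_0 (Or.inr ?_)⟩
      · simp only
        omega
      · simp only
        omega
      · simp only
        omega
      · simp only
        omega
  · have h1 := x.1.2
    have h2 := x.2.2
    refine ⟨Sum.inl 1, Or.inl rfl, ?_⟩
    rcases hx with hx | hx
    · refine ⟨Sum.inr (⟨i + 1 + x.1.val, by omega⟩, ⟨0, by omega⟩), ⟨_, rfl, ?_, ?_, ?_⟩,
        tx_1 (Or.inl rfl)⟩
      · simp only
        omega
      · simp only
        omega
      · simp only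
        omega
    · refine ⟨Sum.inr (⟨i + 1 + x.1.val, by omega⟩, ⟨s - 1, by omega⟩), ⟨_, rfl, ?_, ?_, ?_⟩,
        tx_1 (Or.inr ?_)⟩
      · simp only
        omega
      · simp only
        omega
      · simp only
        omega
      · simp only
        omega
  · have h1 := x.1.2
    have h2 := x.2.2
    have h3 := y.1.2
    have h4 := y.2.2
    refine ⟨Sum.inr (⟨i + 1 + x.1.val, by omega⟩, ⟨x.2.val, by omega⟩), ⟨_, rfl, ?_, ?_, ?_⟩,
      Sum.inr (⟨i + 1 + y.1.val, by omega⟩, ⟨y.2.val, by omega⟩), ⟨_, rfl, ?_, ?_, ?_⟩,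
      tx_g ((grid_adj _ _).2 ?_)⟩
    · simp only
      omega
    · simp only
      omega
    · simp only
      omega
    · simp only
      omega
    · simp only
      omega
    · simp only
      omega
    · rcases (grid_adj _ _).1 hxy with ⟨e, f⟩ | ⟨e, f⟩
      · have e' : x.2.val = y.2.val := congrArg Fin.val e
        refine Or.inl ⟨Fin.ext e', ?_⟩
        simp only
        omega
      · have e' : x.1.val = y.1.val := congrArg Fin.val e
        refine Or.inr ⟨Fin.ext (by simp only; omega), f⟩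

/-- a root in the upper rows -/
theorem low {r s i : ℕ} (hrs : i + 1 + r ≤ s) (x : Fin s × Fin s) (hx : x.1.val ≤ i) :
    RMinor (TX r) (Sum.inl 0) (TX s) (Sum.inr x) := by
  refine ⟨nu r s i, nu_conn hrs, nu_disj, fun a b hab => ?_, Or.inr ⟨rfl, x, rfl, hx⟩⟩
  rcases hab with ⟨-, h | h⟩
  · exact nu_edge hrs h
  · obtain ⟨x, hx, y, hy, hxy⟩ := nu_edge hrs h
    exact ⟨y, hy, x, hx, hxy.symm⟩

/-- the first pole -/
theorem pole {r s : ℕ} (hrs : r ≤ s) : RMinor (TX r) (Sum.inl 0) (TX s) (Sum.inl 0) := by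
  refine ⟨mu r s, mu_conn hrs, mu_disj, fun a b hab => ?_, rfl⟩
  rcases hab with ⟨-, h | h⟩
  · exact mu_edge hrs h
  · obtain ⟨x, hx, y, hy, hxy⟩ := mu_edge hrs h
    exact ⟨y, hy, x, hx, hxy.symm⟩

/-- rows and columns exchanged -/
def trn (s : ℕ) : Fin 2 ⊕ (Fin s × Fin s) → Fin 2 ⊕ (Fin s × Fin s)
  | Sum.inl p => Sum.inl (Equiv.swap 0 1 p)
  | Sum.inr x => Sum.inr (x.2, x.1)

/-- the order of the rows reversed -/
def rvs (s : ℕ) : Fin 2 ⊕ (Fin s × Fin s) → Fin 2 ⊕ (Fin s × Fin s)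
  | Sum.inl p => Sum.inl p
  | Sum.inr x => Sum.inr (Fin.rev x.1, x.2)

theorem trn_inv (s : ℕ) (u) : trn s (trn s u) = u := by
  rcases u with p | x
  · simp [trn]
  · rfl

theorem rvs_inv (s : ℕ) (u) : rvs s (rvs s u) = u := by
  rcases u with p | x
  · rfl
  · simp [rvs]

theorem adj_of {s : ℕ} (f : Fin 2 ⊕ (Fin s × Fin s) → Fin 2 ⊕ (Fin s × Fin s))
    (h0 : ∀ x : Fin s × Fin s, (x.1.val = 0 ∨ x.1.val + 1 = s) →
      (TX s).Adj (f (Sum.inl 0)) (f (Sum.inr x)))
    (h1 : ∀ x : Fin s × Fin s, (x.2.val = 0 ∨ x.2.val + 1 = s) →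
      (TX s).Adj (f (Sum.inl 1)) (f (Sum.inr x)))
    (h2 : ∀ x y : Fin s × Fin s, (grid s).Adj x y → (TX s).Adj (f (Sum.inr x)) (f (Sum.inr y)))
    {u v} (h : (TX s).Adj u v) : (TX s).Adj (f u) (f v) := by
  have key : ∀ u v : Fin 2 ⊕ (Fin s × Fin s),
      ((∃ x : Fin s × Fin s, (x.1.val = 0 ∨ x.1.val + 1 = s) ∧ u = Sum.inl 0 ∧ v = Sum.inr x) ∨
      (∃ x : Fin s × Fin s, (x.2.val = 0 ∨ x.2.val + 1 = s) ∧ u = Sum.inl 1 ∧ v = Sum.inr x) ∨
      ∃ x y : Fin s × Fin s, (grid s).Adj x y ∧ u = Sum.inr x ∧ v = Sum.inr y) →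
      (TX s).Adj (f u) (f v) := by
    rintro u v (⟨x, hx, rfl, rfl⟩ | ⟨x, hx, rfl, rfl⟩ | ⟨x, y, hxy, rfl, rfl⟩)
    · exact h0 x hx
    · exact h1 x hx
    · exact h2 x y hxy
  rcases h with ⟨-, h | h⟩
  · exact key _ _ h
  · exact (key _ _ h).symm

theorem trn_adj (s : ℕ) {u v} (h : (TX s).Adj u v) : (TX s).Adj (trn s u) (trn s v) := by
  refine adj_of (trn s) (fun x hx => ?_) (fun x hx => ?_) (fun x y hxy => ?_) h
  · exact tx_1 hx
  · exact tx_0 hx
  · refine tx_g ((grid_adj _ _).2 ?_)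
    rcases (grid_adj _ _).1 hxy with h | h
    · exact Or.inr h
    · exact Or.inl h

theorem rvs_adj (s : ℕ) {u v} (h : (TX s).Adj u v) : (TX s).Adj (rvs s u) (rvs s v) := by
  refine adj_of (rvs s) (fun x hx => ?_) (fun x hx => ?_) (fun x y hxy => ?_) h
  · have hx1 := x.1.2
    refine tx_0 ?_
    simp only [Fin.val_rev]
    omega
  · exact tx_1 hx
  · have hx1 := x.1.2
    have hy1 := y.1.2
    refine tx_g ((grid_adj _ _).2 ?_)
    rcases (grid_adj _ _).1 hxy with ⟨h1, h2⟩ | ⟨h1, h2⟩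
    · refine Or.inl ⟨h1, ?_⟩
      simp only [Fin.val_rev]
      omega
    · refine Or.inr ⟨?_, h2⟩
      simp only [h1]

/-- an involution which preserves adjacency -/
def invo {V : Type} {G : SimpleGraph V} (f : V → V) (h : ∀ u, f (f u) = u)
    (ha : ∀ u v, G.Adj u v → G.Adj (f u) (f v)) : G ≃g G where
  toFun := f
  invFun := f
  left_inv := h
  right_inv := h
  map_rel_iff' := by
    intro a b
    constructor
    · intro hab
      have := ha _ _ hab
      change G.Adj (f (f a)) (f (f b)) at this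
      rwa [h, h] at this
    · exact ha _ _

theorem via {W V : Type} {H : SimpleGraph W} {k : W} {G : SimpleGraph V} (f : V → V)
    (h : ∀ u, f (f u) = u) (ha : ∀ u v, G.Adj u v → G.Adj (f u) (f v)) {b : V}
    (hb : RMinor H k G (f b)) : RMinor H k G b := by
  have h1 := H427.rminor_iso (invo f h ha) (f b)
  have h2 : (invo f h ha) (f b) = b := h b
  rw [h2] at h1
  exact H427.rminor_trans' hb h1

/-- **[RTX]** -/
theorem rTX {r s : ℕ} (hs : 2 * r ≤ s) (hr : 1 ≤ r) (y : Fin 2 ⊕ (Fin s × Fin s)) :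
    RMinor (TX r) (Sum.inl 0) (TX s) y := by
  have hgrid : ∀ x : Fin s × Fin s, RMinor (TX r) (Sum.inl 0) (TX s) (Sum.inr x) := by
    intro x
    have hx1 := x.1.2
    by_cases hx : x.1.val + 1 + r ≤ s
    · exact low hx x le_rfl
    · refine via (rvs s) (rvs_inv s) (fun _ _ => rvs_adj s) ?_
      refine low (i := s - 1 - x.1.val) (by omega) _ ?_
      simp only [Fin.val_rev]
      omega
  rcases y with p | x
  · have hp : p = 0 ∨ p = 1 := by omega
    rcases hp with rfl | rfl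
    · exact pole (by omega)
    · refine via (trn s) (trn_inv s) (fun _ _ => trn_adj s) ?_
      have : trn s (Sum.inl 1) = Sum.inl 0 := by simp [trn]
      rw [this]
      exact pole (by omega)
  · exact hgrid x

end Vale.Agent.P235.XC.H281
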