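import Vale.Agent.P235.K5.H56.Trees
import Vale.Agent.P235.XC.H281.RTX

set_option linter.all false

/-!
# Excluded minors glued at vertices from planar graphs and rooted minors of `Q r` and `TX r`
(helper281, after helper56)
-/

namespace Vale.Agent.P235.XC.H281

open SimpleGraph hiding Free
open Vale.Agent.P235 Vale.Agent.P235.H134 Vale.Agent.P235.H141 Vale.Agent.P235.H606
open Vale.Agent.P235.H56 Vale.Agent.P235.K5 Vale.Agent.P235.K5.H56 Vale.Agent.P235.XC
open Vale.Agent.P235.XC.H237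
open Vale.Agent.P235.H750 (RMinor RFree)

/-- the connected graphs built from a planar graph or a minor of some `Q r` or `TX r` by gluing,
again and again, at any vertex, a connected rooted graph which is planar, or `K₅`, or `K_{3,3}`, or a
rooted minor of some `(Q r, q r)` or `(TX r, first pole)` -/
inductive XTree (q : ∀ r : ℕ, (Fin 3 ⊕ Fin 2) ⊕ (Fin r × Fin r)) :
    ∀ {W : Type}, SimpleGraph W → Prop
  | core {W : Type} {H : SimpleGraph W} : Finite W → H.Connected →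
      (Planar H ∨ (∃ r, IsMinor H (H830.Q r)) ∨ ∃ r, IsMinor H (TX r)) → XTree q H
  | glue {W : Type} {H : SimpleGraph W} {S T : Set W} {v : W} (hT : v ∈ T) : S ∪ T = Set.univ →
      S ∩ T = {v} → (∀ a b, a ∉ T → b ∉ S → ¬ H.Adj a b) → XTree q (H.induce S) →
      (QBlock q T (H.induce T) ⟨v, hT⟩ ∨ Nonempty (H.induce T ≃g (⊤ : SimpleGraph (Fin 5))) ∨
        (Finite T ∧ (H.induce T).Connected ∧
          ∃ r, RMinor (H.induce T) ⟨v, hT⟩ (TX r) (Sum.inl 0))) →
      XTree q H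

/-- a minor of a graph which is built in both ways, with the roots `a` and with the roots `x` -/
def XKPiece {W : Type} (H : SimpleGraph W) : Prop :=
  ∃ (X : Type) (T : SimpleGraph X), XTree qa T ∧ XTree qx T ∧ IsMinor H T

theorem ktree_xtree {q : ∀ r : ℕ, (Fin 3 ⊕ Fin 2) ⊕ (Fin r × Fin r)} {W : Type}
    {H : SimpleGraph W} (hH : KTree q H) : XTree q H := by
  induction hH with
  | core h1 h2 h3 => exact XTree.core h1 h2 (h3.imp_right Or.inl)
  | glue hT h1 h2 h3 _ h5 ih => exact XTree.glue hT h1 h2 h3 ih (h5.imp_right Or.inl)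

theorem kPiece_xk {W : Type} {H : SimpleGraph W} (h : KPiece H) : XKPiece H := by
  obtain ⟨X, T, h1, h2, h3⟩ := h
  exact ⟨X, T, ktree_xtree h1, ktree_xtree h2, h3⟩

theorem tx_conn (s : ℕ) : (TX (s + 1)).Connected := by
  have h := nu_conn (r := 0) (s := s + 1) (i := s) (by omega) (Sum.inl 0)
  have h0 : (Sum.inl 0 : Fin 2 ⊕ (Fin (s + 1) × Fin (s + 1))) ∈ nu 0 (s + 1) s (Sum.inl 0) :=
    Or.inl rfl
  have hX : ∀ u ∈ nu 0 (s + 1) s (Sum.inl 0), (TX (s + 1)).Reachable (Sum.inl 0) u :=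
    fun u hu => (h.preconnected ⟨_, h0⟩ ⟨u, hu⟩).map (Embedding.induce _).toHom
  have hall : ∀ u, (TX (s + 1)).Reachable (Sum.inl 0) u := by
    rintro (p | x)
    · have hp : p = 0 ∨ p = 1 := by omega
      rcases hp with rfl | rfl
      · exact Reachable.refl _
      · have h1 : (TX (s + 1)).Adj (Sum.inl 1)
            (Sum.inr ((0, 0) : Fin (s + 1) × Fin (s + 1))) := tx_1 (Or.inl rfl)
        exact (hX _ (Or.inr ⟨rfl, (0, 0), rfl, Nat.zero_le _⟩)).trans h1.symm.reachable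
    · have := x.1.2
      exact hX _ (Or.inr ⟨rfl, x, rfl, by omega⟩)
  have : Nonempty (Fin 2 ⊕ (Fin (s + 1) × Fin (s + 1))) := ⟨Sum.inl 0⟩
  exact ⟨fun u v => (hall u).symm.trans (hall v)⟩

theorem rTXfree (hX : ∀ r, ∃ K : ℝ, Free (TX r) K) (r : ℕ) :
    RFree (TX r) (Sum.inl 0) := by
  refine H427.rfree_mono (pole (Nat.le_succ r)) ?_
  obtain ⟨K, hK⟩ := hX (2 * (r + 1))
  refine fun _ => ⟨K, fun V _ G b hG _ hno => hK V G hG fun hm => ?_⟩
  obtain ⟨k', hk'⟩ := exists_root hG hm b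
  exact hno (H427.rminor_trans' (rTX le_rfl (by omega) k') hk')

theorem xtree_rf2 (hK : K5FreeStmt) (hX : ∀ r, ∃ K : ℝ, Free (TX r) K)
    {q : ∀ r : ℕ, (Fin 3 ⊕ Fin 2) ⊕ (Fin r × Fin r)} {W : Type}
    {H : SimpleGraph W} (hH : XTree q H) :
    Finite W ∧ H.Connected ∧ ∃ h : W, ∀ (U : Type) [Finite U] (F : SimpleGraph U) (f : U),
      (∀ r, RF2 F f (H830.Q r) (q r)) → RF2 F f H h := by
  induction hH with
  | @core W H hW hc hcore =>
    refine ⟨hW, hc, ?_⟩
    rcases hcore with hpl | ⟨r, hr⟩ | ⟨r, hr⟩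
    · obtain ⟨h⟩ := hc.nonempty
      refine ⟨h, fun U _ F f _ => rf2_of ?_⟩
      obtain ⟨r, -, μ, m1, m2, m3⟩ := H205.planar W H hpl
      obtain ⟨x, hx⟩ := (m1 h).nonempty
      exact H427.rfree_mono ⟨μ, m1, m2, m3, hx⟩ (H638.rGrid r x)
    · have := hc.nonempty
      obtain ⟨h, hh⟩ := exists_root (q_conn r) hr (q r)
      exact ⟨h, fun U _ F f hq => rf2_mono hh (hq r)⟩
    · have := hc.nonempty
      obtain ⟨h, hh⟩ := exists_root (tx_conn r)
        (minor_trans hr (H237.mono (Nat.le_succ r))) (Sum.inl 0)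
      exact ⟨h, fun U _ F f hq => rf2_of (H427.rfree_mono hh (rTXfree hX (r + 1)))⟩
  | @glue W H S T v hvT hST hST' hadj _ hT ihS =>
    obtain ⟨hSf, hSc, h, hSr⟩ := ihS
    have hvS : v ∈ S := (hST'.symm ▸ Set.mem_singleton v : v ∈ S ∩ T).1
    have hT0 : Finite T ∧ (H.induce T).Connected := by
      rcases hT with hT | ⟨⟨e⟩⟩ | hT
      · exact ⟨hT.1, hT.2.1⟩
      · exact ⟨Finite.of_equiv _ e.toEquiv.symm, e.symm.connected_iff.1 connected_top⟩
      · exact ⟨hT.1, hT.2.1⟩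
    obtain ⟨hTf, hTc⟩ := hT0
    have hW : Finite W := by
      rw [← Set.finite_univ_iff, ← hST]
      exact (Set.toFinite S).union (Set.toFinite T)
    refine ⟨hW, H427.conn_glue hvS hvT hST hSc hTc, h.1, fun U _ F f hq =>
      H427.one2 U W F f H S T v hvS hvT hST hST' hadj hSc hTc ?_ h (hSr U F f hq)⟩
    rcases hT with hT | hT | ⟨-, -, r, hT⟩
    · exact block_rf2 hK hq (Or.inl hT)
    · exact block_rf2 hK hq (Or.inr hT)
    · exact rf2_of (H427.rfree_mono hT (rTXfree hX r))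

theorem xkPiece_free (hK : K5FreeStmt) (hXr : ∀ r, ∃ K : ℝ, Free (TX r) K) {W : Type}
    {H : SimpleGraph W} (hH : XKPiece H) : ∃ C : ℝ, Free H C := by
  obtain ⟨X, T, hA, hX, hm⟩ := hH
  obtain ⟨hf, -, h, h1⟩ := xtree_rf2 hK hXr hA
  obtain ⟨-, -, h', h2⟩ := xtree_rf2 hK hXr hX
  have h3 : RF2 T h' T h := h1 X T h' fun r =>
    rf2_symm (h2 _ (H830.Q r) (qa r) fun s => H427.rf2Q r s)
  obtain ⟨C, hC⟩ := h3 (Nat.card X)
  refine ⟨C, fun V _ G hG hno => ?_⟩
  obtain ⟨b⟩ := hG.nonempty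
  have hno' : ¬ IsMinor T G := fun h => hno (minor_trans hm h)
  have hn : ∀ k, ¬ RMinor T k G b := fun k ⟨μ, m1, m2, m3, _⟩ => hno' ⟨μ, m1, m2, m3⟩
  exact hC V G b hG (H786.noK_of le_rfl hno') (hn _) (hn _)

/-- minors of the graphs `TX r` -/
theorem tx_xk {W : Type} {H : SimpleGraph W} (r : ℕ) (h : IsMinor H (TX r)) : XKPiece H :=
  ⟨_, TX (r + 1), XTree.core inferInstance (tx_conn r) (Or.inr (Or.inr ⟨r + 1, H237.mono le_rfl⟩)),
    XTree.core inferInstance (tx_conn r) (Or.inr (Or.inr ⟨r + 1, H237.mono le_rfl⟩)),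
    minor_trans h (H237.mono (Nat.le_succ r))⟩

/-- (7) and (8) for these excluded minors -/
theorem allXK (hK5 : K5FreeStmt) (hX : ∀ r, ∃ K : ℝ, Free (TX r) K) : ∃ C : ℝ, 1 ≤ C ∧
    (∀ (W : Type) [Finite W] (H : SimpleGraph W),
      (∀ c : H.ConnectedComponent, XKPiece (H.induce c.supp)) →
      ∃ K : ℝ, (∀ (V : Type) [Finite V] (G : SimpleGraph V), G.Connected → ¬ IsMinor H G →
        DistortionLE G K) ∧
      ∀ (t : ℕ) (V : Type) [Finite V] (G : SimpleGraph V), G.Connected →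
        (∃ S : Set V, S.ncard ≤ t ∧ ∀ u ∉ S, ¬ IsMinor H (G.induce (compSet G S u))) →
          DistortionLE G (C * (K + Real.log (t + 2)))) ∧
    (∀ F : (V : Type) → SimpleGraph V → Prop, MinorClosed F →
      ((∃ (W : Type) (_ : Finite W) (H : SimpleGraph W), H.Connected ∧ XKPiece H ∧ ¬ F W H) ∨
      (∃ (W : Type) (_ : Finite W) (H : SimpleGraph W),
        (∀ c : H.ConnectedComponent, XKPiece (H.induce c.supp)) ∧
        ∀ (V : Type) [Finite V] (G : SimpleGraph V), F V G → ¬ IsMinor H G)) →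
      ∃ K : ℝ, ∀ (V : Type) [Finite V] (G : SimpleGraph V), G.Connected → F V G →
        DistortionLE G K) := by
  obtain ⟨A, hA1, -, -, -, -, -, h6, h7⟩ := main_of H830.sPrime H638.monoQ
    (P := fun _ H => XKPiece H) fun W _ H h => xkPiece_free hK5 hX h
  exact ⟨A, hA1, h6, h7⟩

end Vale.Agent.P235.XC.H281
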