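import Vale.Agent.P235.K5.H281.Q4
import Vale.Agent.P235.XC.Defs

set_option linter.all false

/-!
# [X3]: the structure theorem from the quasi-4-connected pieces (helper281)
-/

namespace Vale.Agent.P235.XC.H281

open SimpleGraph Vale.Agent.P235.H134 Vale.Agent.P235.H56 Vale.Agent.P235.K5
open Vale.Agent.P235.K5.H281
open Vale.Agent.P235.H830 (nbr)

/-- a minor has at most as many vertices -/
theorem minor_card {W V : Type} [Finite V] {H : SimpleGraph W} {G : SimpleGraph V}
    (h : IsMinor H G) : Nat.card W ≤ Nat.card V := by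
  obtain ⟨μ, h1, h2, -⟩ := h
  have hne : ∀ a, ∃ v, v ∈ μ a := fun a => by
    obtain ⟨⟨v, hv⟩⟩ := (h1 a).nonempty
    exact ⟨v, hv⟩
  choose f hf using hne
  refine Nat.card_le_card_of_injective f fun a b hab => ?_
  by_contra hne
  exact Set.disjoint_left.1 (h2 a b hne) (hf a) (hab ▸ hf b)

theorem range3 {V : Type} {S : Set V} (hS : S.Finite) (hne : S.Nonempty) (h3 : S.ncard ≤ 3) :
    ∃ r : Fin 3 → V, Set.range r = S := by
  have h0 : S.ncard ≠ 0 := by
    rw [Ne, Set.ncard_eq_zero hS]
    exact hne.ne_empty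
  have hc : S.ncard = 1 ∨ S.ncard = 2 ∨ S.ncard = 3 := by omega
  rcases hc with h | h | h
  · obtain ⟨a, rfl⟩ := Set.ncard_eq_one.1 h
    exact ⟨fun _ => a, by simp⟩
  · obtain ⟨a, b, -, rfl⟩ := Set.ncard_eq_two.1 h
    refine ⟨![a, b, b], ?_⟩
    ext v
    simp [Fin.exists_fin_succ, Fin.exists_fin_two, eq_comm]
    tauto
  · obtain ⟨a, b, c, -, -, -, rfl⟩ := Set.ncard_eq_three.1 h
    refine ⟨![a, b, c], ?_⟩
    ext v
    simp [Fin.exists_fin_succ, Fin.exists_fin_two, eq_comm]
    tauto

theorem q4_of_quasi4 {V : Type} [Finite V] {G : SimpleGraph V} (h : Quasi4 G) : Q4 G := by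
  intro D hD
  rcases (nbr G D).eq_empty_or_nonempty with h0 | hne
  · rcases D.eq_empty_or_nonempty with hDe | hDne
    · left
      rw [hDe]; simp
    · right
      rcases (D ∪ nbr G D)ᶜ.eq_empty_or_nonempty with hc | ⟨s, hs⟩
      · rw [hc]; simp
      · have hsD : s ∉ D := fun h => hs (Or.inl h)
        have hN : ∀ u ∈ D, ∀ v, G.Adj u v → v ∈ D ∨ v = s ∨ v = s := by
          intro u hu v huv
          by_contra hno
          push Not at hno
          have : v ∈ nbr G D := ⟨hno.1, u, hu, huv⟩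
          rw [h0] at this
          exact this
        have hall := h.1 s s D hDne hsD hsD hN
        have hsub : (D ∪ nbr G D)ᶜ ⊆ {s} := by
          intro v hv
          rcases hall v with h1 | h1 | h1
          · exact absurd (Or.inl h1) hv
          · exact h1
          · exact h1
        exact (Set.ncard_le_ncard hsub (Set.toFinite _)).trans (by simp)
  · obtain ⟨r, hr⟩ := range3 (Set.toFinite _) hne hD
    have hmem : ∀ v, v ∈ nbr G D ↔ ∃ i, v = r i := by
      intro v
      rw [← hr]
      constructor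
      · rintro ⟨i, rfl⟩; exact ⟨i, rfl⟩
      · rintro ⟨i, rfl⟩; exact ⟨i, rfl⟩
    refine h.2 r D (D ∪ nbr G D)ᶜ ⟨?_, ?_, ?_, ?_, ?_⟩
    · rw [Set.disjoint_left]
      intro v hv hv'
      exact hv' (Or.inl hv)
    · intro i hi
      exact ((hmem (r i)).2 ⟨i, rfl⟩).1 hi
    · intro i hi
      exact hi (Or.inr ((hmem (r i)).2 ⟨i, rfl⟩))
    · intro v
      by_cases h1 : v ∈ D
      · exact Or.inl h1
      · by_cases h2 : v ∈ nbr G D
        · exact Or.inr (Or.inr ((hmem v).1 h2))
        · exact Or.inr (Or.inl fun h => h.elim h1 h2)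
    · intro u hu v hv huv
      exact hv (by
        by_cases h1 : v ∈ D
        · exact Or.inl h1
        · exact Or.inr ⟨h1, u, hu, huv⟩)

/-- the decomposition for all graphs, connected or not -/
theorem q4all (V : Type) [Finite V] [Nonempty V] (G : SimpleGraph V) :
    ∃ H : SimpleGraph V, G ≤ H ∧ CliqueSum 3 (PM G) H := by
  classical
  obtain ⟨v0⟩ := ‹Nonempty V›
  have hfin : Finite G.ConnectedComponent := Quot.finite _
  have : Fintype G.ConnectedComponent := Fintype.ofFinite _
  have hpiece : ∀ i : G.ConnectedComponent, RootedOn 3 (PM G) G (i.supp ∪ ∅) ∅ := by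
    intro i
    rw [Set.union_empty]
    refine RootedOn.of_induce (pm_iso G) (Set.empty_subset _) ?_
    refine rooted4 G _ _ (G.induce i.supp) _ (Nat.lt_succ_self _) i.connected_toSimpleGraph
      ?_ (fun u hu => hu.elim) ?_
    · refine ⟨fun x => {x.1}, fun x => conn_single G x.1, fun x y hxy => ?_, fun x y hxy => ?_⟩
      · rw [Set.disjoint_left]
        intro v hv hv'
        exact hxy (Subtype.ext ((show v = x.1 from hv).symm.trans hv'))
      · exact ⟨x.1, rfl, y.1, rfl, hxy⟩
    · refine (ncard_sub _ _).trans ?_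
      simp
  have h := RootedOn.multi (G := G) (S := ∅) (R := ∅) (k := 3) (P := PM G)
    (C := fun i : G.ConnectedComponent => i.supp) (by simp) (by simp)
    (G.connectedComponentMk v0) (fun i j hij => ?_) (fun i => Set.disjoint_empty _)
    (fun i j hij u hu v hv huv => ?_) (hpiece _) Finset.univ (fun i _ _ => hpiece i)
  · have hU : (((G.connectedComponentMk v0).supp ∪ ⋃ i ∈ (Finset.univ : Finset G.ConnectedComponent),
        i.supp) ∪ ∅ : Set V) = Set.univ := by
      ext v
      simp only [Set.mem_univ, iff_true]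
      exact Or.inl (Or.inr (Set.mem_iUnion₂.2 ⟨G.connectedComponentMk v, Finset.mem_univ _, rfl⟩))
    rw [hU] at h
    refine Rooted.cliqueSum h ?_
    rintro W K T ⟨h1, h2, h3, h4⟩
    exact ⟨h1, h2, h3, fun h => by simp at h⟩
  · rw [Set.disjoint_left]
    intro v hv hv'
    exact hij (hv.symm.trans hv')
  · have h1 : G.connectedComponentMk u = G.connectedComponentMk v :=
      ConnectedComponent.eq.2 (Adj.reachable huv)
    exact hij ((show G.connectedComponentMk u = i from hu).symm.trans (h1.trans hv))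

/-- **[X3]** with connected pieces which are minors of `G` -/
theorem structX' (hP : PieceStmt) : ∀ r : ℕ, 2 ≤ r → ∃ w : ℕ, ∀ (V : Type) [Finite V]
    (G : SimpleGraph V), ¬ IsMinor (TX r) G → ∃ (H : SimpleGraph V) (n : ℕ) (B : ℕ → Set V),
      G ≤ H ∧ Glued 3 H n B ∧ ∀ t < n, (H.induce (B t)).Connected ∧ IsMinor (H.induce (B t)) G ∧
        ((¬ IsMinor K33 (H.induce (B t)) ∧ ¬ IsMinor K5g (H.induce (B t))) ∨
          TreewidthLE (H.induce (B t)) w) := by
  intro r hr
  obtain ⟨w, hw⟩ := hP r hr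
  refine ⟨w, fun V _ G hG => ?_⟩
  rcases isEmpty_or_nonempty V with hV | hV
  · exact ⟨G, 0, fun _ => ∅, le_rfl, ⟨fun v => hV.elim v, fun t ht => absurd ht (Nat.not_lt_zero t),
      fun t ht => absurd ht (Nat.not_lt_zero t), fun t ht => absurd ht (Nat.not_lt_zero t)⟩,
      fun t ht => absurd ht (Nat.not_lt_zero t)⟩
  · obtain ⟨H, hGH, n, B, hB, hp⟩ := q4all V G
    refine ⟨H, n, B, hGH, hB, fun t ht => ?_⟩
    obtain ⟨h1, h2, h3, h4⟩ := hp t ht
    refine ⟨h1, h2, ?_⟩
    rcases h3 with h3 | h3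
    · left
      constructor
      · intro h
        have := minor_card h
        have h5 : Nat.card (Fin 3 ⊕ Fin 3) = 6 := by simp
        omega
      · intro h
        have := minor_card h
        have h5 : Nat.card (Fin 5) = 5 := by simp
        omega
    · exact hw _ _ h3.1 (q4_of_quasi4 h3) fun h => hG (minor_trans h h2)

/-- **[X3]** -/
theorem structX (hP : PieceStmt) : StructXStmt := by
  intro r hr
  obtain ⟨w, hw⟩ := structX' hP r hr
  refine ⟨w, fun V _ G hG => ?_⟩
  obtain ⟨H, n, B, h1, h2, h3⟩ := hw V G hG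
  exact ⟨H, n, B, h1, h2, fun t ht => (h3 t ht).2.2⟩

end Vale.Agent.P235.XC.H281
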