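import Vale.Agent.P235.XC.H281.X3
import Vale.Agent.P235.XC.H237.Mono
import Vale.Agent.P235.K5.H56.PieceDefs
import Vale.Agent.P235.H134.Grid.MinorRow
import Vale.Agent.P235.H606.UDefs

set_option linter.all false

/-!
# [X8]: bounded `c₁` for the graphs without a minor `TX r`, from the sum theorem (helper281)
-/

namespace Vale.Agent.P235.XC.H281

open SimpleGraph hiding Free
open Vale.Agent.P235.H134 Vale.Agent.P235.H56 Vale.Agent.P235.K5
open Vale.Agent.P235.K5.H281
open Vale.Agent.P235.H606 (Free)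

/-- the sum theorem (`K5.H56.sumR_of SX.H801.finR`) -/
def SumStmt : Prop :=
  ∀ (w : ℕ) (C : ℝ), ∃ K : ℝ, ∀ (V : Type) [Finite V] (G H : SimpleGraph V), G ≤ H →
      G.Connected → CliqueSum 3 (K5.H56.SumPiece w C) H → DistortionLE G K

/-- **[X8]**: `c₁` is bounded on the connected graphs without a minor `TX r` -/
theorem x8_of (hsum : SumStmt) (hP : PieceStmt) (r : ℕ) : ∃ K : ℝ, Free (TX r) K := by
  obtain ⟨w, hw⟩ := structX' hP (r + 2) (by omega)
  obtain ⟨K, hK⟩ := hsum w 1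
  refine ⟨K, fun V _ G hG hno => ?_⟩
  obtain ⟨H, n, B, hle, hB, hp⟩ :=
    hw V G fun h => hno (minor_trans (H237.mono (Nat.le_add_right r 2)) h)
  refine hK V G H hle hG ⟨n, B, hB, fun t ht => ?_⟩
  obtain ⟨h1, -, h2 | h2⟩ := hp t ht
  · exact Or.inr ⟨h1, Or.inl h2.2⟩
  · exact Or.inl h2

/-- every minor of some `TX r` will do -/
theorem x8_minor (hsum : SumStmt) (hP : PieceStmt) {W : Type} (H : SimpleGraph W)
    (hH : ∃ r, IsMinor H (TX r)) : ∃ K : ℝ, Free H K := by
  obtain ⟨r, hr⟩ := hH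
  obtain ⟨K, hK⟩ := x8_of hsum hP r
  exact ⟨K, fun V _ G hG hno => hK V G hG fun h => hno (minor_trans hr h)⟩

/-- every minor-closed family which omits a connected minor of some `TX r` has bounded `c₁` -/
theorem x8_family (hsum : SumStmt) (hP : PieceStmt) (F : (V : Type) → SimpleGraph V → Prop)
    (hF : MinorClosed F) (h : ∃ (W : Type) (_ : Finite W) (H : SimpleGraph W), H.Connected ∧
      (∃ r, IsMinor H (TX r)) ∧ ¬ F W H) :
    ∃ K : ℝ, ∀ (V : Type) [Finite V] (G : SimpleGraph V), G.Connected → F V G →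
        DistortionLE G K := by
  obtain ⟨W, hW, H, hH, hr, hFH⟩ := h
  obtain ⟨K, hK⟩ := x8_minor hsum hP H hr
  exact ⟨K, fun V _ G hG hFG => hK V G hG fun hm =>
    hFH (H134.minor F hF V W G H hG hH hm hFG)⟩

/-- every graph all of whose quasi-4-connected minors are planar or of treewidth at most `w`
spans a sum of such pieces: bounded `c₁` -/
theorem q4_bound (hsum : SumStmt) (w : ℕ) : ∃ K : ℝ, ∀ (V : Type) [Finite V]
    (G : SimpleGraph V), G.Connected →
      (∀ (W : Type) [Finite W] (H : SimpleGraph W), H.Connected → Quasi4 H → IsMinor H G →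
        ¬ IsMinor K5g H ∨ TreewidthLE H w) → DistortionLE G K := by
  obtain ⟨K, hK⟩ := hsum w 1
  refine ⟨K, fun V _ G hG h => ?_⟩
  obtain ⟨H, hle, n, B, hB, hp⟩ := q4Q (fun W H => ¬ IsMinor K5g H ∨ TreewidthLE H w) V G hG h
  refine hK V G H hle hG ⟨n, B, hB, fun t ht => ?_⟩
  obtain ⟨h1, h2, -⟩ := hp t ht
  rcases h2 with h2 | h2 | h2
  · refine Or.inr ⟨h1, Or.inl fun hm => ?_⟩
    have := minor_card hm
    rw [Nat.card_eq_fintype_card, Fintype.card_fin] at this
    omega
  · exact Or.inr ⟨h1, Or.inl h2⟩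
  · exact Or.inl h2

end Vale.Agent.P235.XC.H281
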