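import Vale.Agent.P235.K5.H56.Trees
import Vale.Agent.P235.XC.H281.X8

set_option linter.all false

/-!
# Excluded minors of the graphs `TX r`, componentwise and with deleted vertices (helper281)
-/

namespace Vale.Agent.P235.XC.H281

open SimpleGraph hiding Free
open Vale.Agent.P235 Vale.Agent.P235.H134 Vale.Agent.P235.H141 Vale.Agent.P235.H56
open Vale.Agent.P235.K5 Vale.Agent.P235.K5.H56
open Vale.Agent.P235.H606 (Free)

/-- a `KPiece` or a minor of some `TX r` -/
def XPiece {W : Type} (H : SimpleGraph W) : Prop := KPiece H ∨ ∃ r, IsMinor H (TX r)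

theorem all (hK5 : K5FreeStmt) (hX : ∀ r, ∃ K : ℝ, Free (TX r) K) : ∃ C : ℝ, 1 ≤ C ∧
    (∀ (W : Type) [Finite W] (H : SimpleGraph W),
      (∀ c : H.ConnectedComponent, XPiece (H.induce c.supp)) →
      ∃ K : ℝ, (∀ (V : Type) [Finite V] (G : SimpleGraph V), G.Connected → ¬ IsMinor H G →
        DistortionLE G K) ∧
      ∀ (t : ℕ) (V : Type) [Finite V] (G : SimpleGraph V), G.Connected →
        (∃ S : Set V, S.ncard ≤ t ∧ ∀ u ∉ S, ¬ IsMinor H (G.induce (compSet G S u))) →
          DistortionLE G (C * (K + Real.log (t + 2)))) ∧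
    (∀ F : (V : Type) → SimpleGraph V → Prop, MinorClosed F →
      ((∃ (W : Type) (_ : Finite W) (H : SimpleGraph W), H.Connected ∧ XPiece H ∧ ¬ F W H) ∨
      (∃ (W : Type) (_ : Finite W) (H : SimpleGraph W),
        (∀ c : H.ConnectedComponent, XPiece (H.induce c.supp)) ∧
        ∀ (V : Type) [Finite V] (G : SimpleGraph V), F V G → ¬ IsMinor H G)) →
      ∃ K : ℝ, ∀ (V : Type) [Finite V] (G : SimpleGraph V), G.Connected → F V G →
        DistortionLE G K) := by
  obtain ⟨A, hA1, -, -, -, -, -, h6, h7⟩ := main_of H830.sPrime H638.monoQ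
    (P := fun _ H => XPiece H) fun W _ H h => by
      rcases h with h | ⟨r, hr⟩
      · exact kPiece_free hK5 h
      · obtain ⟨K, hK⟩ := hX r
        exact ⟨K, fun V _ G hG hno => hK V G hG fun h => hno (minor_trans hr h)⟩
  exact ⟨A, hA1, h6, h7⟩

end Vale.Agent.P235.XC.H281
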