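import Vale.Agent.P235.XC.H281.All
import Vale.Agent.P235.XC.H337.All
import Vale.Agent.P235.XC.H183.Piece
import Vale.Agent.P235.K5.H56.SumR

set_option linter.all false

/-!
# Line XC, closed (helper281)
-/

namespace Vale.Agent.P235.XC.H281

open SimpleGraph hiding Free
open Vale.Agent.P235 Vale.Agent.P235.H134 Vale.Agent.P235.H141 Vale.Agent.P235.H56
open Vale.Agent.P235.K5 Vale.Agent.P235.K5.H56
open Vale.Agent.P235.H606 (Free)

theorem pieceStmt : PieceStmt := H183.piece H337.coreStmt

theorem sumStmt : SumStmt := sumR_of K5.SX.H801.finR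

/-- the structure theorem for the graphs without a minor `TX r` -/
theorem structXStmt : StructXStmt := structX pieceStmt

/-- `c₁` is bounded on the connected graphs without a minor `TX r` -/
theorem x8 (r : ℕ) : ∃ K : ℝ, Free (TX r) K := x8_of sumStmt pieceStmt r

theorem allX : ∃ C : ℝ, 1 ≤ C ∧
    (∀ (W : Type) [Finite W] (H : SimpleGraph W),
      (∀ c : H.ConnectedComponent, XPiece (H.induce c.supp)) →
      ∃ K : ℝ, (∀ (V : Type) [Finite V] (G : SimpleGraph V), G.Connected → ¬ IsMinor H G →
        DistortionLE G K) ∧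
      ∀ (t : ℕ) (V : Type) [Finite V] (G : SimpleGraph V), G.Connected →
        (∃ S : Set V, S.ncard ≤ t ∧ ∀ u ∉ S, ¬ IsMinor H (G.induce (compSet G S u))) →
          DistortionLE G (C * (K + Real.log (t + 2)))) ∧
    (∀ F : (V : Type) → SimpleGraph V → Prop, MinorClosed F →
      ((∃ (W : Type) (_ : Finite W) (H : SimpleGraph W), H.Connected ∧ XPiece H ∧ ¬ F W H) ∨
      (∃ (W : Type) (_ : Finite W) (H : SimpleGraph W),
        (∀ c : H.ConnectedComponent, XPiece (H.induce c.supp)) ∧
        ∀ (V : Type) [Finite V] (G : SimpleGraph V), F V G → ¬ IsMinor H G)) →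
      ∃ K : ℝ, ∀ (V : Type) [Finite V] (G : SimpleGraph V), G.Connected → F V G →
        DistortionLE G K) := all K5.H56.k5free x8

end Vale.Agent.P235.XC.H281
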