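import Vale.Agent.P235.H56.RDefs
import Vale.Agent.P235.XC.TXDef
import Vale.Agent.P235.XC.H783.OneXDef

/-! Excluded minors glued at vertices: definitions (helper281, after helper56). -/

set_option autoImplicit false

namespace Vale.Agent.P235.XC.H281

open SimpleGraph Vale.Agent.P235 Vale.Agent.P235.H134 Vale.Agent.P235.H56
open Vale.Agent.P235.H750 (RMinor)

/-- The connected graphs built from a connected graph which is planar, or drawn with one crossing,
or a minor of some `Q r` or `CrossGrid r`, by gluing, again and again, at any vertex, a connected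
rooted graph which is planar, or `K₅`, or `K_{3,3}`, or a rooted minor of some `(Q r, q r)` or
`(CrossGrid r, inl 0)`. -/
inductive ZTree (q : ∀ r : ℕ, (Fin 3 ⊕ Fin 2) ⊕ (Fin r × Fin r)) :
    ∀ {W : Type}, SimpleGraph W → Prop
  | core {W : Type} {H : SimpleGraph W} : Finite W → H.Connected →
      (Planar H ∨ H783.OneX H ∨ (∃ r, IsMinor H (H830.Q r)) ∨ ∃ r, IsMinor H (CrossGrid r)) →
      ZTree q H
  | glue {W : Type} {H : SimpleGraph W} {S T : Set W} {v : W} (hT : v ∈ T) : S ∪ T = Set.univ →
      S ∩ T = {v} → (∀ a b, a ∉ T → b ∉ S → ¬ H.Adj a b) → ZTree q (H.induce S) →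
      (QBlock q T (H.induce T) ⟨v, hT⟩ ∨ Nonempty (H.induce T ≃g (⊤ : SimpleGraph (Fin 5))) ∨
        (Finite T ∧ (H.induce T).Connected ∧
          ∃ r, RMinor (H.induce T) ⟨v, hT⟩ (CrossGrid r) (Sum.inl 0))) →
      ZTree q H

/-- a minor of a graph which is built in both ways, with the roots `a` and with the roots `x` -/
def ZPiece {W : Type} (H : SimpleGraph W) : Prop :=
  ∃ (X : Type) (T : SimpleGraph X), ZTree qa T ∧ ZTree qx T ∧ IsMinor H T

end Vale.Agent.P235.XC.H281
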