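import Vale.Agent.P235.XC.H281.XKDef
import Vale.Agent.P235.XC.H281.Closed2
import Vale.Agent.P235.XC.H783.Draw

set_option linter.all false

/-!
# (7) and (8) with the pieces `ZPiece` (helper281)
-/

namespace Vale.Agent.P235.XC.H281

open SimpleGraph hiding Free
open Vale.Agent.P235 Vale.Agent.P235.H134 Vale.Agent.P235.H141 Vale.Agent.P235.H56
open Vale.Agent.P235.K5 Vale.Agent.P235.K5.H56
open Vale.Agent.P235.H606 (Free)

theorem ztree_xtree {q : ∀ r : ℕ, (Fin 3 ⊕ Fin 2) ⊕ (Fin r × Fin r)} {W : Type}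
    {H : SimpleGraph W} (hH : ZTree q H) : XTree q H := by
  induction hH with
  | @core W H h1 h2 h3 =>
    refine XTree.core h1 h2 ?_
    rcases h3 with h3 | h3 | h3 | h3
    · exact Or.inl h3
    · obtain ⟨r, -, hr⟩ := H783.onex H h3
      exact Or.inr (Or.inr ⟨r, hr⟩)
    · exact Or.inr (Or.inl h3)
    · exact Or.inr (Or.inr h3)
  | glue hT h1 h2 h3 _ h5 ih => exact XTree.glue hT h1 h2 h3 ih h5

theorem zPiece_xk {W : Type} {H : SimpleGraph W} (h : ZPiece H) : XKPiece H := by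
  obtain ⟨X, T, h1, h2, h3⟩ := h
  exact ⟨X, T, ztree_xtree h1, ztree_xtree h2, h3⟩

/-- a good excluded minor -/
theorem zPiece_free {W : Type} {H : SimpleGraph W} (h : ZPiece H) : ∃ C : ℝ, Free H C :=
  xkPiece_free K5.H56.k5free x8 (zPiece_xk h)

theorem ktree_ztree {q : ∀ r : ℕ, (Fin 3 ⊕ Fin 2) ⊕ (Fin r × Fin r)} {W : Type}
    {H : SimpleGraph W} (hH : KTree q H) : ZTree q H := by
  induction hH with
  | core h1 h2 h3 => exact ZTree.core h1 h2 (h3.imp_right fun h => Or.inr (Or.inl h))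
  | glue hT h1 h2 h3 _ h5 ih => exact ZTree.glue hT h1 h2 h3 ih (h5.imp_right Or.inl)

theorem kPiece_z {W : Type} {H : SimpleGraph W} (h : KPiece H) : ZPiece H := by
  obtain ⟨X, T, h1, h2, h3⟩ := h
  exact ⟨X, T, ktree_ztree h1, ktree_ztree h2, h3⟩

theorem tx_z {W : Type} {H : SimpleGraph W} (r : ℕ) (h : IsMinor H (CrossGrid r)) : ZPiece H :=
  ⟨_, CrossGrid (r + 1),
    ZTree.core inferInstance (tx_conn r) (Or.inr (Or.inr (Or.inr ⟨r + 1, H237.mono le_rfl⟩))),
    ZTree.core inferInstance (tx_conn r) (Or.inr (Or.inr (Or.inr ⟨r + 1, H237.mono le_rfl⟩))),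
    minor_trans h (H237.mono (Nat.le_succ r))⟩

theorem final78z : ∃ C : ℝ, 1 ≤ C ∧
    (∀ (W : Type) [Finite W] (H : SimpleGraph W),
      (∀ c : H.ConnectedComponent, ZPiece (H.induce c.supp)) →
      ∃ K : ℝ, (∀ (V : Type) [Finite V] (G : SimpleGraph V), G.Connected → ¬ IsMinor H G →
        DistortionLE G K) ∧
      ∀ (t : ℕ) (V : Type) [Finite V] (G : SimpleGraph V), G.Connected →
        (∃ S : Set V, S.ncard ≤ t ∧ ∀ u ∉ S, ¬ IsMinor H (G.induce (compSet G S u))) →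
          DistortionLE G (C * (K + Real.log (t + 2)))) ∧
    (∀ F : (V : Type) → SimpleGraph V → Prop, MinorClosed F →
      ((∃ (W : Type) (_ : Finite W) (H : SimpleGraph W), H.Connected ∧ ZPiece H ∧ ¬ F W H) ∨
      (∃ (W : Type) (_ : Finite W) (H : SimpleGraph W),
        (∀ c : H.ConnectedComponent, ZPiece (H.induce c.supp)) ∧
        ∀ (V : Type) [Finite V] (G : SimpleGraph V), F V G → ¬ IsMinor H G)) →
      ∃ K : ℝ, ∀ (V : Type) [Finite V] (G : SimpleGraph V), G.Connected → F V G →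
        DistortionLE G K) := by
  obtain ⟨A, hA1, -, -, -, -, -, h6, h7⟩ := main_of H830.sPrime H638.monoQ
    (P := fun _ H => ZPiece H) fun W _ H h => zPiece_free h
  exact ⟨A, hA1, h6, h7⟩

end Vale.Agent.P235.XC.H281
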